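import Vale.Agent.P225.Assembly
import Vale.Agent.P225.Levels
import Vale.Agent.P225.Eigenbasis
import Vale.Agent.P225.LieFull
import Vale.Agent.P225.CountGain
import Vale.Agent.P225.Metric
import Vale.Agent.P225.BergerCalc
import Vale.Agent.P225.Core

/-!
P225: Yau's dimension comparison for harmonic functions of polynomial growth fails in dimension 42.

The metric is `dr^2 + r^2 h(log r)`, where `h` runs through slowly changing Berger spheres. Each
level of spherical harmonics gives a finite linear system; short pulses permute cyclically a band of
eigenvectors of the dwell metric, so the growth exponent of each solution is the band average, and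
the band counts exceed the Euclidean count.
-/

namespace Vale.Agent.Results.P225.YauDimensionCounterexample

open Vale.Agent.P225

theorem result :
    ∃ g : (Fin 42 → ℝ) → Matrix (Fin 42) (Fin 42) ℝ,
      IsMetric g ∧ IsCompleteMetric g ∧ RicciNonneg g ∧
        ∃ k : ℕ, 1 ≤ k ∧
          ∃ u : Fin (Nat.choose (42 + k - 1) k + Nat.choose (42 + k - 2) (k - 1) + 1) →
              (Fin 42 → ℝ) → ℝ,
            LinearIndependent ℝ u ∧ ∀ i, IsPolyHarmonic g k (u i) :=
  assembly (levels eigenbasis lieFull) countGain (metricFromProfile bergerCalc) core

end Vale.Agent.Results.P225.YauDimensionCounterexample
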